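import Vale.Agent.P097F.Defs
import Vale.Agent.P097Mo.Win

/-!
# P097F: the limit curve of a sequence of circle windows
-/

set_option linter.all false

noncomputable section

namespace Vale.Agent.P097F

open Filter Topology Set Metric Complex Vale.Agent.P097T
open Vale.Agent.P097D (Lo)
open Vale.Agent.P097W (Envl Good)
open Vale.Agent.P097M (Gs)

namespace LimA

theorem wt {η a : ℝ → ℝ} {u₀ u d t : ℝ} {m N j : ℕ} (E : Envl η u₀ m N a) (pk : a d * u ≤ 2 * d)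
    (d0 : 0 < d) (u0 : 0 < u) (t0 : 0 < t) (hj : 2 * j ≤ N) :
    ((a (d * t) * u / d) ^ 2 / max 1 (1 / t) ^ (2 * m)) ^ j ≤ 4 ^ j * max t (1 / t) := by
  have a1 := E.one d
  have a2 := E.one (d * t)
  obtain ⟨q, hq⟩ : ∃ q, q = a (d * t) / a d := ⟨_, rfl⟩
  have q0 : 0 < q := by rw [hq]; positivity
  have qa : a (d * t) = q * a d := by rw [hq]; field_simp
  have r1 : a (d * t) * u / d ≤ 2 * q := by
    rw [div_le_iff₀ d0, qa]
    nlinarith
  have r0 : 0 ≤ a (d * t) * u / d := by positivity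
  have m1 : (1 : ℝ) ≤ max 1 (1 / t) := le_max_left _ _
  rcases le_total t 1 with c | c
  · have g := E.grow d (d * t) (by positivity) (by nlinarith)
    rw [qa, mul_pow] at g
    have g1 : q * t ^ m ≤ 1 := by
      refine le_of_mul_le_mul_right (le_of_eq_of_le (by ring) (g.trans_eq (by ring)))
        (show 0 < a d * d ^ m by positivity)
    have g2 : q ≤ max 1 (1 / t) ^ m := by
      refine le_trans ?_ (pow_le_pow_left₀ (by positivity) (le_max_right _ _) m)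
      rwa [one_div_pow, le_div_iff₀ (by positivity)]
    have g3 : (a (d * t) * u / d) ^ 2 / max 1 (1 / t) ^ (2 * m) ≤ 4 := by
      rw [div_le_iff₀ (by positivity), mul_comm 2 m, pow_mul]
      exact (pow_le_pow_left₀ r0 (r1.trans (mul_le_mul_of_nonneg_left g2 (by norm_num))) 2).trans_eq
        (by ring)
    refine (pow_le_pow_left₀ (by positivity) g3 j).trans (le_mul_of_one_le_right (by positivity) ?_)
    exact le_trans ((le_div_iff₀ t0).2 (by linarith)) (le_max_right _ _)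
  · have g := E.dec (d * t) d d0 (by nlinarith)
    rw [qa, mul_pow] at g
    have g1 : q ^ N ≤ t := by
      refine le_of_mul_le_mul_right (le_of_eq_of_le (by ring) (g.trans_eq (by ring)))
        (show 0 < a d ^ N * d by positivity)
    have g2 : q ^ (2 * j) ≤ t := by
      rcases le_total q 1 with k | k
      · exact (pow_le_one₀ q0.le k).trans c
      · exact (pow_le_pow_right₀ k hj).trans g1
    have g3 : (a (d * t) * u / d) ^ 2 / max 1 (1 / t) ^ (2 * m) ≤ 4 * q ^ 2 :=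
      (div_le_self (by positivity) (one_le_pow₀ m1)).trans
        ((pow_le_pow_left₀ r0 r1 2).trans_eq (by ring))
    refine (pow_le_pow_left₀ (by positivity) g3 j).trans ?_
    rw [mul_pow, ← pow_mul]
    gcongr
    exact g2.trans (le_max_left _ _)

variable (X : DD)

theorem wy_im (u s : ℝ) (z : ℂ) : (X.wy u s z).im = X.r + X.η u * z.im := by simp [DD.wy]

theorem wy_re (u s : ℝ) (z : ℂ) : (X.wy u s z).re = s + X.η u * z.re := by simp [DD.wy]

theorem ng {u : ℝ} (s : ℝ) (z : ℂ) (u0 : 0 < u) (e0 : 0 < X.η u) :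
    ‖(X.ep u : ℂ) * deriv (X.θw u s) z‖ = u * ‖deriv X.θ (X.wy u s z)‖ := by
  have : deriv (X.θw u s) z = X.η u * deriv X.θ (X.wy u s z) :=
    congrFun (P097Mo.deriv_aff X.θ (s + X.r * I) (X.η u)) z
  rw [this, norm_mul, norm_mul, norm_real, norm_real, DD.ep, Real.norm_eq_abs, Real.norm_eq_abs,
    abs_of_pos (div_pos u0 e0), abs_of_pos e0]
  field_simp

theorem nq {u : ℝ} (s : ℝ) (z : ℂ) (e0 : 0 < X.η u) :
    u ^ 2 * ‖X.Q (X.wy u s z)‖ = X.ep u ^ 2 * ‖X.Qw u s z‖ := by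
  rw [DD.Qw, norm_mul, norm_pow, norm_real, DD.ep, Real.norm_eq_abs, abs_of_pos e0]
  field_simp

/-- the bound in a good window -/
theorem win {a : ℝ → ℝ} {N j : ℕ} {M u s k : ℝ} {z : ℂ} (E : Envl X.η X.u₀ X.p N a) (pk : X.Pk a u)
    (hj : 2 * j ≤ N) (G : Good X.r (deriv X.θ) X.Q a (X.η u) (2 * j) M (s + X.η u * k))
    (z0 : z.im < 0) (z1 : 0 ≤ (X.wy u s z).im) :
    (u ^ 2 * Gs (deriv X.θ) X.Q (X.wy u s z) * (-z.im) ^ 2 / max 1 (1 / (-z.im)) ^ (2 * X.p)) ^ j ≤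
      4 ^ j * (1 + |M|) * (max (-z.im) (1 / (-z.im)) * (1 + |z.re - k| / (-z.im))) ^ 2 := by
  obtain ⟨⟨u0, -⟩, d0, pk⟩ := pk
  have h := G _ z1 (by rw [wy_im]; nlinarith)
  obtain ⟨t, ht⟩ : ∃ t, t = -z.im := ⟨_, rfl⟩
  have t0 : 0 < t := by linarith
  have e1 : X.r - (X.wy u s z).im = X.η u * t := by rw [wy_im, ht]; ring
  have e2 : |(X.wy u s z).re - (s + X.η u * k)| / (X.η u * t) = |z.re - k| / t := by
    rw [wy_re, show s + X.η u * z.re - (s + X.η u * k) = X.η u * (z.re - k) by ring, abs_mul,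
      abs_of_pos d0]
    field_simp
  rw [e1, e2, show X.η u * t / X.η u = t by field_simp,
    show X.η u / (X.η u * t) = 1 / t by field_simp] at h
  rw [← ht]
  have w := wt E pk d0 u0 t0 hj
  have a1 := E.one (X.η u * t)
  have g0 : 0 ≤ Gs (deriv X.θ) X.Q (X.wy u s z) := by unfold Gs; positivity
  generalize Gs (deriv X.θ) X.Q (X.wy u s z) = g at h g0 ⊢
  have m0 : 0 < max t (1 / t) := lt_max_of_lt_left t0
  obtain ⟨Z, hZ⟩ : ∃ Z, Z = max t (1 / t) * (1 + |z.re - k| / t) := ⟨_, rfl⟩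
  have Z1 : max t (1 / t) ≤ Z := hZ ▸ le_mul_of_one_le_right m0.le
    (le_add_of_nonneg_right (by positivity))
  rw [← hZ] at h ⊢
  have Z0 : 0 < Z := m0.trans_le Z1
  have h1 : (g * (X.η u * t) ^ 2 / a (X.η u * t) ^ 2) ^ j ≤ (1 + |M|) * Z := by
    refine le_of_pow_le_pow_left₀ two_ne_zero (by positivity) ?_
    rw [← pow_mul, mul_comm j, mul_pow (1 + |M|)]
    refine h.trans (mul_le_mul_of_nonneg_right ?_ (by positivity))
    nlinarith [le_abs_self M, abs_nonneg M]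
  calc _ = (g * (X.η u * t) ^ 2 / a (X.η u * t) ^ 2) ^ j *
        ((a (X.η u * t) * u / X.η u) ^ 2 / max 1 (1 / t) ^ (2 * X.p)) ^ j := by
        rw [← mul_pow]
        congr 1
        generalize a (X.η u * t) = A at a1
        field_simp
    _ ≤ (1 + |M|) * Z * (4 ^ j * Z) :=
        mul_le_mul h1 (w.trans (by gcongr)) (by positivity) (by positivity)
    _ = _ := by ring

/-- the active points of the true curve -/
theorem pt : ∃ c : ℝ, 0 < c ∧ ∀ u ∈ Ioo 0 X.u₀, 0 < X.η u → ∀ s σ τ : ℝ, 0 < τ → τ < 1 / 16 →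
    X.ep u ≤ c * τ → ∃ z : ℂ, 0 ≤ (X.wy u s z).im ∧ τ ≤ -z.im ∧ |z.re - σ| ≤ -z.im ∧
      (c ^ 4 * τ ^ 3 ≤ (u * ‖deriv X.θ (X.wy u s z)‖) ^ 4 * (-z.im) ^ 3 ∨
        c ^ 4 * τ ^ 3 ≤ (u ^ 2 * ‖X.Q (X.wy u s z)‖) ^ 2 * (-z.im) ^ 3) := by
  obtain ⟨c, c0, h⟩ := X.dat.fam.act X.dat.cur one_pos le_rfl
  refine ⟨c, c0, fun u hu d0 s σ τ τ0 τ1 e => ?_⟩
  have u0 := hu.1
  have dr : X.η u ≤ X.r := by linarith [X.dat.fam.low u hu, X.dat.fam.sol.pos]
  rw [DD.ep, div_le_iff₀ d0] at e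
  have k := mt (fun K => h u hu (s + X.η u * σ) (τ * X.η u) (c * (τ * X.η u) / u) (by positivity)
    (by nlinarith) (by rw [le_div_iff₀ u0]; linarith) K (by field_simp; rfl)) (by nlinarith)
  unfold P097S.Kc at k
  push Not at k
  obtain ⟨y, ⟨y0, y1, y2⟩, k⟩ := k
  have e1 : (X.η u : ℂ) ≠ 0 := by exact_mod_cast d0.ne'
  obtain ⟨z, rfl⟩ : ∃ z, y = X.wy u s z :=
    ⟨(y - s - X.r * I) / X.η u, by rw [DD.wy]; field_simp; ring⟩
  obtain ⟨t, ht⟩ : ∃ t, t = -z.im := ⟨_, rfl⟩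
  have e1 : X.r - (X.wy u s z).im = X.η u * t := by rw [wy_im, ht]; ring
  rw [e1] at y1 y2 k
  rw [wy_re, show s + X.η u * z.re - (s + X.η u * σ) = X.η u * (z.re - σ) by ring, abs_mul,
    abs_of_pos d0, one_mul] at y2
  have t1 : τ < t := lt_of_mul_lt_mul_left (a := X.η u) (by linarith) d0.le
  have t0 : 0 < t := τ0.trans t1
  refine ⟨z, y0.le, ?_, ?_, ?_⟩
  · rw [← ht]; exact t1.le
  · rw [← ht]; exact (lt_of_mul_lt_mul_left y2 d0.le).le
  · rw [← ht]
    have p0 : 0 < X.η u ^ 5 * t * τ / u ^ 4 := by positivity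
    by_contra n
    push Not at n
    have := k (le_of_eq_of_le (by field_simp)
      ((mul_le_mul_of_nonneg_right n.1.le p0.le).trans_eq (by field_simp)))
    refine this.not_ge (le_of_eq_of_le (by field_simp)
      ((mul_le_mul_of_nonneg_right n.2.le p0.le).trans_eq (by field_simp)))

theorem top {κ G t x σ M : ℝ} {j p : ℕ} (j8 : 8 ≤ j) (κ0 : 0 < κ) (M0 : 0 ≤ M) (G0 : 0 ≤ G)
    (t0 : 0 < t) (h1 : κ ≤ G ^ 2 * t ^ 3) (h2 : |x - σ| ≤ t)
    (h3 : (G * t ^ 2 / max 1 (1 / t) ^ (2 * p)) ^ j ≤ M * (max t (1 / t) * (1 + |x| / t)) ^ 2) :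
    t ≤ max 1 ((M * (2 + |σ|) ^ 2) ^ 2 / κ ^ j) := by
  rcases le_total t 1 with c | c
  · exact c.trans (le_max_left _ _)
  refine le_trans ?_ (le_max_right _ _)
  have i1 : 1 / t ≤ 1 := (div_le_one t0).2 c
  rw [max_eq_left i1, max_eq_left (i1.trans c), one_pow, div_one] at h3
  have x1 : |x| ≤ t + |σ| := by linarith [abs_sub_abs_le_abs_sub x σ]
  have x2 : t * (1 + |x| / t) ≤ (2 + |σ|) * t := by
    rw [mul_add, mul_div_cancel₀ _ t0.ne']
    nlinarith [abs_nonneg σ]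
  have b1 : (G * t ^ 2) ^ j ≤ M * (2 + |σ|) ^ 2 * t ^ 2 :=
    h3.trans (le_of_le_of_eq (by gcongr) (by ring : M * ((2 + |σ|) * t) ^ 2 = _))
  have b2 : (κ * t) ^ j ≤ ((G * t ^ 2) ^ j) ^ 2 := by
    rw [← pow_mul, mul_comm j, pow_mul]
    exact pow_le_pow_left₀ (by positivity)
      ((mul_le_mul_of_nonneg_right h1 t0.le).trans_eq (by ring)) j
  have b3 := b2.trans (pow_le_pow_left₀ (by positivity) b1 2)
  have b4 : t ^ 5 ≤ t ^ j := pow_le_pow_right₀ c (by omega)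
  rw [le_div_iff₀ (by positivity)]
  refine le_of_mul_le_mul_right ?_ (pow_pos t0 4)
  calc t * κ ^ j * t ^ 4 = κ ^ j * t ^ 5 := by ring
    _ ≤ κ ^ j * t ^ j := by gcongr
    _ ≤ _ := by rw [← mul_pow]; exact b3.trans_eq (by ring)

end LimA

open LimA in
theorem lim : Spec_LIM := by
  intro X
  obtain ⟨c, c0, hc⟩ := pt X
  refine ⟨1, c, zero_le_one, c0, fun j N j8 hj a M 𝒰 u s g E W => ?_⟩
  have u0 : ∀ n, 0 < u n := fun n => (W.pk n).1.1
  have d0 : ∀ n, 0 < X.η (u n) := fun n => (W.pk n).2.1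
  have nz : P097Mo.NZ g (Lo 0) := by
    obtain ⟨y, hy, h⟩ := W.ne
    exact P097Mo.nz_of W.seq.op (convex_halfSpace_im_lt 0).isPreconnected W.seq.dg hy h
  have e0 : Tendsto (fun n => X.ep (u n)) 𝒰 (𝓝 0) := W.ep0.mono_left W.le
  have ep : ∀ n, 0 < X.ep (u n) := fun n => div_pos (u0 n) (d0 n)
  refine ⟨4 ^ j * (1 + |M|), W.seq.dg, W.seq.sz nz, fun k hk y hy => ?_, fun σ τ τ0 τ1 => ?_, W.p0,
    W.dens, W.fe⟩
  · have hz : (y + k).im < 0 := by simpa using hy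
    have l := W.seq.cc (y + k) hz _ tendsto_const_nhds
    obtain ⟨ρ, ρ0, ex⟩ := W.seq.ex (2 * (y + k)) (by show (2 * (y + k)).im < 0; simp; linarith)
    refine le_of_tendsto ((((l.norm.pow 2).mul_const _).div_const _).pow j) ?_
    filter_upwards [hk, ex] with n h1 h2
    have h3 : |(X.wy (u n) (s n) (2 * (y + k))).im| < X.r := h2 (mem_ball_self ρ0)
    have h4 := win X E (W.pk n) hj h1 hz (by
      rw [wy_im] at h3 ⊢
      have := (abs_lt.1 h3).1
      simp at this ⊢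
      linarith)
    simp only [add_im, intCast_im, add_zero, add_re, intCast_re, add_sub_cancel_right] at h4
    refine le_trans ?_ h4
    rw [ng X _ _ (u0 n) (d0 n), Nat.add_sub_cancel, mul_pow, Gs]
    gcongr
    exact le_add_of_nonneg_right (norm_nonneg _)
  · have lτ : Tendsto (fun n => τ * (1 - X.ep (u n))) 𝒰 (𝓝 τ) := by
      simpa using (e0.const_sub 1).const_mul τ
    have v1 : ∀ᶠ n in (𝒰 : Filter ℕ), τ / 2 ≤ τ * (1 - X.ep (u n)) :=
      lτ.eventually (eventually_ge_nhds (by linarith))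
    have v2 : ∀ᶠ n in (𝒰 : Filter ℕ), X.ep (u n) ≤ c * (τ / 2) :=
      e0.eventually (eventually_le_nhds (by positivity))
    obtain ⟨z, hz⟩ := ((v1.and v2).mono fun n h => hc (u n) (W.pk n).1 (d0 n) (s n) σ
      (τ * (1 - X.ep (u n))) (by linarith [h.1]) (by nlinarith [ep n]) (h.2.trans (by gcongr; exact h.1))).choice
    obtain ⟨κ, hκ⟩ : ∃ κ, κ = c ^ 4 * (τ / 2) ^ 3 := ⟨_, rfl⟩
    have κ0 : 0 < κ := by rw [hκ]; positivity
    have v3 : ∀ᶠ n in (𝒰 : Filter ℕ), κ ≤ c ^ 4 * (τ * (1 - X.ep (u n))) ^ 3 :=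
      v1.mono fun n h => by rw [hκ]; gcongr
    obtain ⟨T, hT⟩ : ∃ T, ∀ᶠ n in (𝒰 : Filter ℕ), -(z n).im ≤ T := by
      refine ⟨max 1 ((4 ^ j * (1 + |M|) * (2 + |σ|) ^ 2) ^ 2 / κ ^ j), ?_⟩
      filter_upwards [hz, v1, v3, W.p0] with n ⟨h1, h2, h3, h4⟩ h5 h6 h7
      have t0 : 0 < -(z n).im := by linarith
      have w := win X E (W.pk n) hj h7 (by linarith) h1
      rw [Int.cast_zero, sub_zero] at w
      refine top j8 κ0 (by positivity) (by unfold Gs; positivity) t0 (h6.trans ?_) h3 w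
      have q1 : 0 ≤ u n ^ 2 * ‖deriv X.θ (X.wy (u n) (s n) (z n))‖ ^ 2 := by positivity
      have q2 : 0 ≤ u n ^ 2 * ‖X.Q (X.wy (u n) (s n) (z n))‖ := by positivity
      rw [Gs, mul_add]
      rcases h4 with h | h <;> refine h.trans (mul_le_mul_of_nonneg_right ?_ (by positivity))
      · rw [show ∀ x : ℝ, (u n * x) ^ 4 = (u n ^ 2 * x ^ 2) ^ 2 from fun x => by ring]
        exact pow_le_pow_left₀ q1 (by linarith) 2
      · exact pow_le_pow_left₀ q2 (by linarith) 2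
    obtain ⟨y, hy, l⟩ := ((isCompact_Icc (a := σ - T) (b := σ + T)).reProdIm
      (isCompact_Icc (a := -T) (b := -(τ / 2)))).ultrafilter_le_nhds (𝒰.map z) (by
        rw [Ultrafilter.coe_map, le_principal_iff, mem_map]
        filter_upwards [hz, v1, hT] with n ⟨h1, h2, h3, h4⟩ h5 h6
        have := abs_le.1 h3
        exact ⟨⟨by linarith, by linarith⟩, by linarith, by linarith⟩)
    replace l : Tendsto z 𝒰 (𝓝 y) := l
    have y0 : y ∈ Lo 0 := by
      have := hy.2.2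
      show y.im < 0
      linarith
    have li : Tendsto (fun n => -(z n).im) 𝒰 (𝓝 (-y.im)) := ((continuous_im.tendsto y).comp l).neg
    have lr : Tendsto (fun n => |(z n).re - σ|) 𝒰 (𝓝 |y.re - σ|) :=
      (((continuous_re.tendsto y).comp l).sub_const σ).abs
    obtain ⟨ρ, ρ0, B, -, qb⟩ := W.seq.qb nz y y0
    have l0 : Tendsto (fun n => (X.ep (u n) ^ 2 * B) ^ 2 * (-(z n).im) ^ 3) 𝒰 (𝓝 0) := by
      simpa using (((e0.pow 2).mul_const B).pow 2).mul (li.pow 3)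
    refine ⟨y, le_of_tendsto_of_tendsto lτ li (hz.mono fun n h => h.2.1), ?_, ?_⟩
    · rw [one_mul]
      exact le_of_tendsto_of_tendsto lr li (hz.mono fun n h => h.2.2.1)
    · refine le_of_tendsto_of_tendsto ((lτ.pow 3).const_mul _)
        (((W.seq.cc y y0 z l).norm.pow 4).mul (li.pow 3)) ?_
      filter_upwards [hz, v1, v3, qb, l.eventually (ball_mem_nhds y ρ0),
        l0.eventually (eventually_lt_nhds κ0)] with n ⟨h1, h2, h3, h4⟩ h5 h6 h7 h8 h9
      rw [ng X _ _ (u0 n) (d0 n)]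
      refine h4.resolve_right fun h => (h6.trans h).not_gt (lt_of_le_of_lt ?_ h9)
      have t0 : 0 < -(z n).im := by linarith
      rw [nq X _ _ (d0 n)]
      gcongr
      exact h7.2 _ h8

end Vale.Agent.P097F
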